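import Mathlib

/-!
Coordinate core of the left-invariant tamed-to-compatible theorem in dimension four.
-/

namespace Vale.Agent.Lib.P204

open scoped BigOperators

noncomputable section

/-- The wedge pairing of two arrays, read on the basis `0,1,2,3`. -/
def wedge (A B : Fin 4 → Fin 4 → ℝ) : ℝ :=
  A 0 1 * B 2 3 - A 0 2 * B 1 3 + A 0 3 * B 1 2 + A 1 2 * B 0 3 - A 1 3 * B 0 2 + A 2 3 * B 0 1

/-- The value of the Chevalley-Eilenberg differential of `Om` on a basis triple. -/
def closedVal (c : Fin 4 → Fin 4 → Fin 4 → ℝ) (Om : Fin 4 → Fin 4 → ℝ) (i j l : Fin 4) : ℝ :=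
  ∑ k, (c i j k * Om k l + c j l k * Om k i + c l i k * Om k j)

/-- The Chevalley-Eilenberg differential of the one-form `β`, as an array. -/
def dd (c : Fin 4 → Fin 4 → Fin 4 → ℝ) (β : Fin 4 → ℝ) (i j : Fin 4) : ℝ :=
  - ∑ k, β k * c i j k

lemma wedge_dd (c : Fin 4 → Fin 4 → Fin 4 → ℝ) (hc : ∀ i j k, c j i k = - c i j k)
    (tr : ∀ l, ∑ k, c l k k = 0) (Om : Fin 4 → Fin 4 → ℝ) (hOm : ∀ i j, Om j i = - Om i j)
    (β : Fin 4 → ℝ) :
    wedge (dd c β) Om = -(β 0 * closedVal c Om 1 2 3 - β 1 * closedVal c Om 0 2 3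
      + β 2 * closedVal c Om 0 1 3 - β 3 * closedVal c Om 0 1 2) := by
  have c00 : ∀ k, c 0 0 k = 0 := fun k => by linarith [hc 0 0 k]
  have c11 : ∀ k, c 1 1 k = 0 := fun k => by linarith [hc 1 1 k]
  have c22 : ∀ k, c 2 2 k = 0 := fun k => by linarith [hc 2 2 k]
  have c33 : ∀ k, c 3 3 k = 0 := fun k => by linarith [hc 3 3 k]
  have c10 := fun k => hc 0 1 k
  have c20 := fun k => hc 0 2 k
  have c30 := fun k => hc 0 3 k
  have c21 := fun k => hc 1 2 k
  have c31 := fun k => hc 1 3 k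
  have c32 := fun k => hc 2 3 k
  have O00 : Om 0 0 = 0 := by linarith [hOm 0 0]
  have O11 : Om 1 1 = 0 := by linarith [hOm 1 1]
  have O22 : Om 2 2 = 0 := by linarith [hOm 2 2]
  have O33 : Om 3 3 = 0 := by linarith [hOm 3 3]
  have O10 := hOm 0 1
  have O20 := hOm 0 2
  have O30 := hOm 0 3
  have O21 := hOm 1 2
  have O31 := hOm 1 3
  have O32 := hOm 2 3
  have tr0 := tr 0
  have tr1 := tr 1
  have tr2 := tr 2
  have tr3 := tr 3
  simp only [Fin.sum_univ_four, c00, c11, c22, c33, c10, c20, c30, c21, c31, c32] at tr0 tr1 tr2 tr3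
  simp only [wedge, dd, closedVal, Fin.sum_univ_four, c20, c30, c31,
    O00, O11, O22, O33, O10, O20, O30, O21, O31, O32]
  linear_combination (1) * β 0 * Om 1 2 * tr3 + (-1) * β 0 * Om 1 3 * tr2
    + (1) * β 0 * Om 2 3 * tr1 + (-1) * β 1 * Om 0 2 * tr3 + (1) * β 1 * Om 0 3 * tr2
    + (-1) * β 1 * Om 2 3 * tr0 + (1) * β 2 * Om 0 1 * tr3 + (-1) * β 2 * Om 0 3 * tr1
    + (1) * β 2 * Om 1 3 * tr0 + (-1) * β 3 * Om 0 1 * tr2 + (1) * β 3 * Om 0 2 * tr1
    + (-1) * β 3 * Om 1 2 * tr0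

lemma closedVal_swap (c : Fin 4 → Fin 4 → Fin 4 → ℝ) (hc : ∀ i j k, c j i k = - c i j k)
    (Om : Fin 4 → Fin 4 → ℝ) (hOm : ∀ i j, Om j i = - Om i j) (i j l : Fin 4) :
    closedVal c Om j i l = - closedVal c Om i j l := by
  simp only [closedVal, ← Finset.sum_neg_distrib]
  refine Finset.sum_congr rfl fun k _ => ?_
  rw [hc i j k, hc i l k, hc j l k]
  ring

lemma closedVal_cyc (c : Fin 4 → Fin 4 → Fin 4 → ℝ) (Om : Fin 4 → Fin 4 → ℝ) (i j l : Fin 4) :
    closedVal c Om j l i = closedVal c Om i j l := by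
  simp only [closedVal]
  refine Finset.sum_congr rfl fun k _ => ?_
  ring

lemma closedVal_all (c : Fin 4 → Fin 4 → Fin 4 → ℝ) (hc : ∀ i j k, c j i k = - c i j k)
    (Om : Fin 4 → Fin 4 → ℝ) (hOm : ∀ i j, Om j i = - Om i j)
    (h123 : closedVal c Om 1 2 3 = 0) (h023 : closedVal c Om 0 2 3 = 0)
    (h013 : closedVal c Om 0 1 3 = 0) (h012 : closedVal c Om 0 1 2 = 0) (i j l : Fin 4) :
    closedVal c Om i j l = 0 := by
  have swap := closedVal_swap c hc Om hOm
  have cyc := closedVal_cyc c Om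
  have same : ∀ i l, closedVal c Om i i l = 0 := fun i l => by linarith [swap i i l]
  have same2 : ∀ i l, closedVal c Om i l i = 0 := fun i l => by
    rw [cyc i i l]; exact same _ _
  have same3 : ∀ i l, closedVal c Om l i i = 0 := fun i l => by
    rw [cyc i l i]; exact same2 _ _
  have sorted : ∀ x y z : Fin 4, x < y → y < z → closedVal c Om x y z = 0 := by
    intro x y z hxy hyz
    fin_cases x <;> fin_cases y <;> fin_cases z <;>
      first
      | exact h123
      | exact h023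
      | exact h013
      | exact h012
      | exact absurd hxy (by decide)
      | exact absurd hyz (by decide)
  rcases lt_trichotomy i j with hij | rfl | hij
  · rcases lt_trichotomy j l with hjl | rfl | hjl
    · exact sorted _ _ _ hij hjl
    · exact same3 _ _
    · rcases lt_trichotomy i l with hil | rfl | hil
      · have h := sorted i l j hil hjl
        linarith [cyc i j l, swap j l i, cyc i l j]
      · exact same2 _ _
      · have h := sorted l i j hil hij
        rw [← cyc l i j] at h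
        exact h
  · exact same _ _
  · rcases lt_trichotomy i l with hil | rfl | hil
    · rw [swap j i l, sorted j i l hij hil, neg_zero]
    · exact same2 _ _
    · rcases lt_trichotomy j l with hjl | rfl | hjl
      · have h := sorted j l i hjl hil
        rw [← cyc j l i] at h
        rw [← cyc l i j] at h
        exact h
      · exact same3 _ _
      · rw [swap j i l]
        have h := sorted l j i hjl hij
        rw [← cyc l j i] at h
        rw [h, neg_zero]

/-- The Lorentzian form on `(a, d, b₁, b₂)`. -/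
def lor : LinearMap.BilinForm ℝ (Fin 4 → ℝ) :=
  LinearMap.mk₂ ℝ (fun x y => x 0 * y 1 + y 0 * x 1 - 2 * (x 2 * y 2) - 2 * (x 3 * y 3))
    (by intro x y z; simp only [Pi.add_apply]; ring)
    (by intro r x y; simp only [Pi.smul_apply, smul_eq_mul]; ring)
    (by intro x y z; simp only [Pi.add_apply]; ring)
    (by intro r x y; simp only [Pi.smul_apply, smul_eq_mul]; ring)

lemma lor_apply (x y : Fin 4 → ℝ) :
    lor x y = x 0 * y 1 + y 0 * x 1 - 2 * (x 2 * y 2) - 2 * (x 3 * y 3) := rfl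

lemma lor_symm (x y : Fin 4 → ℝ) : lor x y = lor y x := by
  simp only [lor_apply]; ring

/-- The identity behind the reverse Cauchy-Schwarz inequality in Lorentzian signature. -/
lemma cone_identity (x s : Fin 4 → ℝ) :
    s 0 ^ 2 * (lor x x / 2)
      = x 0 * s 0 * lor x s - x 0 ^ 2 * (s 0 * s 1 - s 2 ^ 2 - s 3 ^ 2)
        - ((x 0 * s 2 - s 0 * x 2) ^ 2 + (x 0 * s 3 - s 0 * x 3) ^ 2) := by
  simp only [lor_apply]; ring

lemma cone_null (x s : Fin 4 → ℝ) (hs0 : 0 < s 0) (hs : s 2 ^ 2 + s 3 ^ 2 < s 0 * s 1)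
    (hxs : lor x s = 0) (hxx : 0 ≤ lor x x) : x = 0 := by
  have h := cone_identity x s
  rw [hxs] at h
  have hE : 0 < s 0 * s 1 - s 2 ^ 2 - s 3 ^ 2 := by linarith
  have h1 : 0 ≤ s 0 ^ 2 * (lor x x / 2) := by positivity
  have hx0 : x 0 = 0 := by
    by_contra hne
    have : 0 < x 0 ^ 2 * (s 0 * s 1 - s 2 ^ 2 - s 3 ^ 2) := by positivity
    nlinarith [sq_nonneg (x 0 * s 2 - s 0 * x 2), sq_nonneg (x 0 * s 3 - s 0 * x 3)]
  rw [hx0] at h
  have h2 : (s 0 * x 2) ^ 2 + (s 0 * x 3) ^ 2 ≤ 0 := by nlinarith [h, h1]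
  have hx2 : x 2 = 0 := by
    have : s 0 * x 2 = 0 := by nlinarith [sq_nonneg (s 0 * x 2), sq_nonneg (s 0 * x 3)]
    rcases mul_eq_zero.mp this with h | h
    · exact absurd h hs0.ne'
    · exact h
  have hx3 : x 3 = 0 := by
    have : s 0 * x 3 = 0 := by nlinarith [sq_nonneg (s 0 * x 2), sq_nonneg (s 0 * x 3)]
    rcases mul_eq_zero.mp this with h | h
    · exact absurd h hs0.ne'
    · exact h
  have hx1 : x 1 = 0 := by
    have : lor x s = s 0 * x 1 := by simp only [lor_apply, hx0, hx2, hx3]; ring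
    rw [hxs] at this
    rcases mul_eq_zero.mp this.symm with h | h
    · exact absurd h hs0.ne'
    · exact h
  funext i
  fin_cases i
  · exact hx0
  · exact hx1
  · exact hx2
  · exact hx3

lemma cone_pos (x s : Fin 4 → ℝ) (hs0 : 0 < s 0) (hs : s 2 ^ 2 + s 3 ^ 2 < s 0 * s 1)
    (hxs : 0 < lor x s) (hxx : 0 < lor x x) : 0 < x 0 := by
  have h := cone_identity x s
  have hE : 0 < s 0 * s 1 - s 2 ^ 2 - s 3 ^ 2 := by linarith
  have h1 : 0 < s 0 ^ 2 * (lor x x / 2) := by positivity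
  have h2 : 0 < x 0 * s 0 * lor x s := by
    have h3 : 0 ≤ x 0 ^ 2 * (s 0 * s 1 - s 2 ^ 2 - s 3 ^ 2) := by positivity
    nlinarith [sq_nonneg (x 0 * s 2 - s 0 * x 2), sq_nonneg (x 0 * s 3 - s 0 * x 3)]
  by_contra hne
  have hx : x 0 ≤ 0 := not_lt.mp hne
  have : x 0 * (s 0 * lor x s) ≤ 0 :=
    mul_nonpos_of_nonpos_of_nonneg hx (by positivity)
  nlinarith

/-- The `J`-invariant part of an array, in the coordinates `(a, d, b₁, b₂)`. -/
def invPart (A : Fin 4 → Fin 4 → ℝ) : Fin 4 → ℝ :=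
  ![A 0 1, A 2 3, (A 0 2 + A 1 3) / 2, (A 1 2 - A 0 3) / 2]

/-- The `J`-anti-invariant part of an array, first coordinate. -/
def antiU (A : Fin 4 → Fin 4 → ℝ) : ℝ := (A 0 2 - A 1 3) / 2

/-- The `J`-anti-invariant part of an array, second coordinate. -/
def antiV (A : Fin 4 → Fin 4 → ℝ) : ℝ := (A 0 3 + A 1 2) / 2

lemma wedge_decomp (A B : Fin 4 → Fin 4 → ℝ) :
    wedge A B = lor (invPart A) (invPart B) + 2 * (antiU A * antiU B + antiV A * antiV B) := by
  simp only [wedge, lor_apply, invPart, antiU, antiV]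
  simp
  ring

/-- The `J`-invariant array with given coordinates. -/
def invArray (x : Fin 4 → ℝ) : Fin 4 → Fin 4 → ℝ :=
  !![0, x 0, x 2, -x 3; -x 0, 0, x 3, x 2; -x 2, -x 3, 0, x 1; x 3, -x 2, -x 1, 0]

lemma invArray_antisymm (x : Fin 4 → ℝ) (i j : Fin 4) : invArray x j i = - invArray x i j := by
  fin_cases i <;> fin_cases j <;> simp [invArray]

lemma invPart_invArray (x : Fin 4 → ℝ) : invPart (invArray x) = x := by
  funext i
  fin_cases i <;> simp [invPart, invArray]

lemma antiU_invArray (x : Fin 4 → ℝ) : antiU (invArray x) = 0 := by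
  simp [antiU, invArray]

lemma antiV_invArray (x : Fin 4 → ℝ) : antiV (invArray x) = 0 := by
  simp [antiV, invArray]

/-- The coordinate version of the theorem. -/
theorem core (c : Fin 4 → Fin 4 → Fin 4 → ℝ) (hc : ∀ i j k, c j i k = - c i j k)
    (tr : ∀ l, ∑ k, c l k k = 0)
    (jac : ∀ (β : Fin 4 → ℝ) (i j l : Fin 4), closedVal c (dd c β) i j l = 0)
    (Om : Fin 4 → Fin 4 → ℝ) (hOm : ∀ i j, Om j i = - Om i j)
    (hcl : ∀ i j l, closedVal c Om i j l = 0)
    (hs0 : 0 < invPart Om 0)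
    (hs : invPart Om 2 ^ 2 + invPart Om 3 ^ 2 < invPart Om 0 * invPart Om 1) :
    ∃ (β x : Fin 4 → ℝ), 0 < x 0 ∧ x 2 ^ 2 + x 3 ^ 2 < x 0 * x 1 ∧
      (∀ i j l, closedVal c (invArray x) i j l = 0) ∧
      invPart Om = x + invPart (dd c β) := by
  classical
  set s := invPart Om with hsdef
  have hddanti : ∀ (β : Fin 4 → ℝ) (i j : Fin 4), dd c β j i = - dd c β i j := by
    intro β i j
    simp only [dd, hc i j, mul_neg, Finset.sum_neg_distrib, neg_neg]
  -- the linear map `β ↦ invariant part of dβ`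
  let Lam : (Fin 4 → ℝ) →ₗ[ℝ] (Fin 4 → ℝ) :=
    { toFun := fun β => invPart (dd c β)
      map_add' := by
        intro β γ
        funext i
        fin_cases i <;>
          simp [invPart, dd, add_mul, Fin.sum_univ_four] <;> ring
      map_smul' := by
        intro r β
        funext i
        fin_cases i <;>
          simp [invPart, dd, Fin.sum_univ_four] <;> ring }
  have hLam : ∀ β, Lam β = invPart (dd c β) := fun _ => rfl
  -- vanishing of wedge with closed arrays
  have hwedge : ∀ (β : Fin 4 → ℝ) (A : Fin 4 → Fin 4 → ℝ), (∀ i j, A j i = - A i j) →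
      (∀ i j l, closedVal c A i j l = 0) → wedge (dd c β) A = 0 := by
    intro β A hA hAc
    rw [wedge_dd c hc tr A hA β]
    simp [hAc]
  have hself : ∀ β γ : Fin 4 → ℝ, wedge (dd c β) (dd c γ) = 0 := fun β γ =>
    hwedge β _ (hddanti γ) (jac γ)
  have hOmz : ∀ β : Fin 4 → ℝ, wedge (dd c β) Om = 0 := fun β => hwedge β _ hOm hcl
  -- negative definiteness on the range
  have hnonpos : ∀ β : Fin 4 → ℝ, lor (Lam β) (Lam β) ≤ 0 := by
    intro β
    have h := hself β β
    rw [wedge_decomp] at h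
    rw [hLam]
    nlinarith [sq_nonneg (antiU (dd c β)), sq_nonneg (antiV (dd c β))]
  have hkey : ∀ β : Fin 4 → ℝ, lor (Lam β) (Lam β) = 0 → Lam β = 0 := by
    intro β h0
    have h := hself β β
    rw [wedge_decomp, ← hLam, h0] at h
    have hU : antiU (dd c β) = 0 := by nlinarith [sq_nonneg (antiU (dd c β)), sq_nonneg (antiV (dd c β))]
    have hV : antiV (dd c β) = 0 := by nlinarith [sq_nonneg (antiU (dd c β)), sq_nonneg (antiV (dd c β))]
    have h2 := hOmz β
    rw [wedge_decomp, ← hLam, hU, hV] at h2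
    have h3 : lor (Lam β) s = 0 := by linarith
    exact cone_null _ s hs0 hs h3 (le_of_eq h0.symm)
  have hrefl : lor.IsRefl := fun x y h => by rw [lor_symm]; exact h
  have hsepL : ∀ x ∈ LinearMap.range Lam, (∀ y ∈ LinearMap.range Lam, lor x y = 0) → x = 0 := by
    rintro x ⟨β, rfl⟩ hx
    exact hkey β (hx _ ⟨β, rfl⟩)
  have hnd : (lor.restrict (LinearMap.range Lam)).Nondegenerate := by
    refine ⟨?_, ?_⟩
    · rintro ⟨x, hx⟩ h
      have := hsepL x hx (fun y hy => h ⟨y, hy⟩)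
      exact Subtype.ext this
    · rintro ⟨x, hx⟩ h
      have := hsepL x hx (fun y hy => by
        rw [lor_symm]; exact h ⟨y, hy⟩)
      exact Subtype.ext this
  have hcompl := LinearMap.BilinForm.isCompl_orthogonal_of_restrict_nondegenerate hrefl hnd
  have hmem : s ∈ LinearMap.range Lam ⊔ lor.orthogonal (LinearMap.range Lam) := by
    rw [hcompl.sup_eq_top]; exact Submodule.mem_top
  obtain ⟨τ, hτ, ξ, hξ, hsum⟩ := Submodule.mem_sup.mp hmem
  obtain ⟨β, rfl⟩ := hτ
  have hortho : ∀ γ, lor (Lam γ) ξ = 0 := fun γ => by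
    have := (LinearMap.BilinForm.mem_orthogonal_iff.mp hξ) (Lam γ) ⟨γ, rfl⟩
    exact this
  have hss : 0 < lor s s := by
    simp only [lor_apply]; nlinarith
  have hsplit : s = Lam β + ξ := hsum.symm
  have hξξ : lor ξ ξ = lor s s - lor (Lam β) (Lam β) := by
    rw [hsplit]
    simp only [map_add, LinearMap.add_apply]
    rw [hortho β, lor_symm ξ (Lam β), hortho β]
    ring
  have hξpos : 0 < lor ξ ξ := by
    have := hnonpos β
    linarith
  have hξs : lor ξ s = lor ξ ξ := by
    rw [hsplit]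
    simp only [map_add]
    rw [lor_symm ξ (Lam β), hortho β]
    ring
  refine ⟨β, ξ, ?_, ?_, ?_, ?_⟩
  · exact cone_pos ξ s hs0 hs (by rw [hξs]; exact hξpos) hξpos
  · simp only [lor_apply] at hξpos
    nlinarith
  · have hw : ∀ γ : Fin 4 → ℝ, wedge (dd c γ) (invArray ξ) = 0 := by
      intro γ
      rw [wedge_decomp, invPart_invArray, antiU_invArray, antiV_invArray, ← hLam, hortho γ]
      ring
    have hA := invArray_antisymm ξ
    have hval := fun γ => wedge_dd c hc tr (invArray ξ) hA γ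
    have e0 := hval ![1, 0, 0, 0]
    have e1 := hval ![0, 1, 0, 0]
    have e2 := hval ![0, 0, 1, 0]
    have e3 := hval ![0, 0, 0, 1]
    rw [hw] at e0 e1 e2 e3
    simp at e0 e1 e2 e3
    intro i j l
    refine closedVal_all c hc _ hA ?_ ?_ ?_ ?_ i j l
    · linarith [e0]
    · linarith [e1]
    · linarith [e2]
    · linarith [e3]
  · rw [hsplit, add_comm]
    rfl

end

end Vale.Agent.Lib.P204
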