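import Vale.Agent.Lib.P204.Core

/-!
The left-invariant version of the tamed-to-compatible statement on four-dimensional
unimodular real Lie algebras.
-/

namespace Vale.Agent.Lib.P204

open scoped BigOperators

noncomputable section

variable {L : Type*} [LieRing L] [LieAlgebra ℝ L]

/-- The differential of a linear form on a Lie algebra, as a bilinear form. -/
def dForm (β : Module.Dual ℝ L) : LinearMap.BilinForm ℝ L :=
  LinearMap.mk₂ ℝ (fun u v => - β ⁅u, v⁆)
    (by intro x y z; simp only [add_lie, map_add]; ring)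
    (by intro r x y; simp only [smul_lie, map_smul, smul_eq_mul]; ring)
    (by intro x y z; simp only [lie_add, map_add]; ring)
    (by intro r x y; simp only [lie_smul, map_smul, smul_eq_mul]; ring)

lemma dForm_apply (β : Module.Dual ℝ L) (u v : L) : dForm β u v = - β ⁅u, v⁆ := rfl

lemma dForm_closed (β : Module.Dual ℝ L) (x y z : L) :
    dForm β ⁅x, y⁆ z + dForm β ⁅y, z⁆ x + dForm β ⁅z, x⁆ y = 0 := by
  simp only [dForm_apply]
  have hj : ⁅⁅x, y⁆, z⁆ + ⁅⁅y, z⁆, x⁆ + ⁅⁅z, x⁆, y⁆ = 0 := by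
    have := lie_jacobi x y z
    have h1 : ⁅⁅x, y⁆, z⁆ = - ⁅z, ⁅x, y⁆⁆ := (lie_skew _ _).symm
    have h2 : ⁅⁅y, z⁆, x⁆ = - ⁅x, ⁅y, z⁆⁆ := (lie_skew _ _).symm
    have h3 : ⁅⁅z, x⁆, y⁆ = - ⁅y, ⁅z, x⁆⁆ := (lie_skew _ _).symm
    rw [h1, h2, h3]
    have h4 : ⁅x, ⁅y, z⁆⁆ + ⁅y, ⁅z, x⁆⁆ + ⁅z, ⁅x, y⁆⁆ = 0 := this
    calc - ⁅z, ⁅x, y⁆⁆ + - ⁅x, ⁅y, z⁆⁆ + - ⁅y, ⁅z, x⁆⁆
        = - (⁅x, ⁅y, z⁆⁆ + ⁅y, ⁅z, x⁆⁆ + ⁅z, ⁅x, y⁆⁆) := by abel
      _ = 0 := by rw [h4, neg_zero]
  have := congrArg β hj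
  simp only [map_add, map_zero] at this
  linarith

/-- A basis adapted to a complex structure. -/
lemma exists_adapted_basis [Module.Finite ℝ L] (h4 : Module.finrank ℝ L = 4)
    (J : L →ₗ[ℝ] L) (hJ : ∀ x, J (J x) = -x) :
    ∃ b : Module.Basis (Fin 4) ℝ L,
      J (b 0) = b 1 ∧ J (b 1) = - b 0 ∧ J (b 2) = b 3 ∧ J (b 3) = - b 2 := by
  classical
  have hnt : Nontrivial L := Module.nontrivial_of_finrank_pos (R := ℝ) (by omega)
  obtain ⟨e0, he0⟩ := exists_ne (0 : L)
  let U : Submodule ℝ L := Submodule.span ℝ (Set.range ![e0, J e0])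
  have hU : Module.finrank ℝ U < Module.finrank ℝ L := by
    have h := finrank_range_le_card (R := ℝ) (![e0, J e0])
    have h2 : Module.finrank ℝ U ≤ 2 := by
      calc Module.finrank ℝ U = Set.finrank ℝ (Set.range ![e0, J e0]) := rfl
        _ ≤ Fintype.card (Fin 2) := h
        _ = 2 := by simp
    omega
  have hUne : U ≠ ⊤ := by
    intro h
    rw [h] at hU
    simp at hU
  obtain ⟨e2, he2⟩ : ∃ e2, e2 ∉ U := by
    by_contra hall
    simp only [not_exists, not_not] at hall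
    exact hUne (Submodule.eq_top_iff'.mpr hall)
  have hmem : ∀ a c : ℝ, a • e0 + c • J e0 ∈ U := by
    intro a c
    refine Submodule.add_mem _ (Submodule.smul_mem _ _ (Submodule.subset_span ⟨0, rfl⟩))
      (Submodule.smul_mem _ _ (Submodule.subset_span ⟨1, rfl⟩))
  have hli : LinearIndependent ℝ ![e0, J e0, e2, J e2] := by
    rw [Fintype.linearIndependent_iff]
    intro g hg
    simp only [Fin.sum_univ_four, Matrix.cons_val_zero, Matrix.cons_val_one, Matrix.cons_val] at hg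
    have hg' := congrArg J hg
    simp only [map_add, map_smul, hJ, map_zero, smul_neg] at hg'
    -- eliminate `J e2`
    have h1 : (g 2 ^ 2 + g 3 ^ 2) • e2
        = - ((g 2 * g 0 + g 3 * g 1) • e0 + (g 2 * g 1 - g 3 * g 0) • J e0) := by
      have : (g 2) • (g 0 • e0 + g 1 • J e0 + g 2 • e2 + g 3 • J e2)
          - (g 3) • (g 0 • J e0 + -(g 1 • e0) + g 2 • J e2 + -(g 3 • e2)) = 0 := by
        rw [hg, hg']; simp
      have h2 : (g 2 ^ 2 + g 3 ^ 2) • e2
          + ((g 2 * g 0 + g 3 * g 1) • e0 + (g 2 * g 1 - g 3 * g 0) • J e0) = 0 := by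
        rw [← this]
        simp only [smul_add, smul_sub, smul_neg, smul_smul, add_smul, sub_smul, sub_neg_eq_add,
          pow_two]
        rw [mul_comm (g 3) (g 2)]
        abel
      exact eq_neg_of_add_eq_zero_left h2
    have h23 : g 2 ^ 2 + g 3 ^ 2 = 0 := by
      by_contra hne
      apply he2
      have : e2 = (g 2 ^ 2 + g 3 ^ 2)⁻¹ • (- ((g 2 * g 0 + g 3 * g 1) • e0
          + (g 2 * g 1 - g 3 * g 0) • J e0)) := by
        rw [← h1, smul_smul, inv_mul_cancel₀ hne, one_smul]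
      rw [this]
      exact Submodule.smul_mem _ _ (Submodule.neg_mem _ (hmem _ _))
    have hg2 : g 2 = 0 := by nlinarith [sq_nonneg (g 2), sq_nonneg (g 3)]
    have hg3 : g 3 = 0 := by nlinarith [sq_nonneg (g 2), sq_nonneg (g 3)]
    simp only [hg2, hg3, zero_smul, add_zero, smul_zero, neg_zero] at hg hg'
    have h01 : (g 0 ^ 2 + g 1 ^ 2) • e0 = 0 := by
      have : (g 0) • (g 0 • e0 + g 1 • J e0) - (g 1) • (g 0 • J e0 + -(g 1 • e0)) = 0 := by
        rw [hg, hg']; simp
      rw [← this]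
      simp only [smul_add, smul_neg, smul_smul, add_smul, pow_two, smul_sub]
      rw [mul_comm (g 1) (g 0)]
      abel
    have h0 : g 0 ^ 2 + g 1 ^ 2 = 0 := by
      rcases smul_eq_zero.mp h01 with h | h
      · exact h
      · exact absurd h he0
    have hg0 : g 0 = 0 := by nlinarith [sq_nonneg (g 0), sq_nonneg (g 1)]
    have hg1 : g 1 = 0 := by nlinarith [sq_nonneg (g 0), sq_nonneg (g 1)]
    intro i
    fin_cases i
    · exact hg0
    · exact hg1
    · exact hg2
    · exact hg3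
  let b := basisOfLinearIndependentOfCardEqFinrank hli (by simp [h4])
  have hb : ∀ i, b i = ![e0, J e0, e2, J e2] i := fun i => by
    simp [b, coe_basisOfLinearIndependentOfCardEqFinrank]
  refine ⟨b, ?_, ?_, ?_, ?_⟩
  · simp [hb]
  · simp [hb, hJ]
  · simp [hb]
  · simp [hb, hJ]

section Main

variable [Module.Finite ℝ L]

/-- Coordinates of the bracket. -/
def structConst (b : Module.Basis (Fin 4) ℝ L) (i j k : Fin 4) : ℝ := b.repr ⁅b i, b j⁆ k

lemma bracket_expand (b : Module.Basis (Fin 4) ℝ L) (i j : Fin 4) :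
    ⁅b i, b j⁆ = ∑ k, structConst b i j k • b k := (b.sum_repr _).symm

lemma form_bracket (b : Module.Basis (Fin 4) ℝ L) (Ω : LinearMap.BilinForm ℝ L) (i j l : Fin 4) :
    Ω ⁅b i, b j⁆ (b l) = ∑ k, structConst b i j k * Ω (b k) (b l) := by
  rw [bracket_expand b i j]
  simp [map_sum, LinearMap.sum_apply]

lemma closedVal_form (b : Module.Basis (Fin 4) ℝ L) (Ω : LinearMap.BilinForm ℝ L) (i j l : Fin 4) :
    closedVal (structConst b) (fun i j => Ω (b i) (b j)) i j l
      = Ω ⁅b i, b j⁆ (b l) + Ω ⁅b j, b l⁆ (b i) + Ω ⁅b l, b i⁆ (b j) := by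
  rw [form_bracket, form_bracket, form_bracket, ← Finset.sum_add_distrib, ← Finset.sum_add_distrib]
  rfl

lemma dual_bracket (b : Module.Basis (Fin 4) ℝ L) (β : Fin 4 → ℝ) (i j : Fin 4) :
    dForm (b.constr ℝ β) (b i) (b j) = dd (structConst b) β i j := by
  rw [dForm_apply, bracket_expand b i j]
  simp [dd, map_sum, Module.Basis.constr_basis, mul_comm]

/-- A trilinear expression vanishing on a basis vanishes. -/
lemma closed_of_basis (b : Module.Basis (Fin 4) ℝ L) (Ω : LinearMap.BilinForm ℝ L)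
    (h : ∀ i j l, Ω ⁅b i, b j⁆ (b l) + Ω ⁅b j, b l⁆ (b i) + Ω ⁅b l, b i⁆ (b j) = 0)
    (x y z : L) : Ω ⁅x, y⁆ z + Ω ⁅y, z⁆ x + Ω ⁅z, x⁆ y = 0 := by
  -- first variable
  have h1 : ∀ (i j : Fin 4) (x : L),
      Ω ⁅x, b i⁆ (b j) + Ω ⁅b i, b j⁆ x + Ω ⁅b j, x⁆ (b i) = 0 := by
    intro i j x
    let f : L →ₗ[ℝ] ℝ :=
      { toFun := fun x => Ω ⁅x, b i⁆ (b j) + Ω ⁅b i, b j⁆ x + Ω ⁅b j, x⁆ (b i)
        map_add' := by
          intro u v
          simp only [add_lie, lie_add, map_add, LinearMap.add_apply]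
          ring
        map_smul' := by
          intro r u
          simp only [smul_lie, lie_smul, map_smul, LinearMap.smul_apply, smul_eq_mul,
            RingHom.id_apply]
          ring }
    have : f = 0 := b.ext fun l => h l i j
    exact congrArg (fun g : L →ₗ[ℝ] ℝ => g x) this
  have h2 : ∀ (j : Fin 4) (x y : L),
      Ω ⁅x, y⁆ (b j) + Ω ⁅y, b j⁆ x + Ω ⁅b j, x⁆ y = 0 := by
    intro j x y
    let f : L →ₗ[ℝ] ℝ :=
      { toFun := fun y => Ω ⁅x, y⁆ (b j) + Ω ⁅y, b j⁆ x + Ω ⁅b j, x⁆ y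
        map_add' := by
          intro u v
          simp only [add_lie, lie_add, map_add, LinearMap.add_apply]
          ring
        map_smul' := by
          intro r u
          simp only [smul_lie, lie_smul, map_smul, LinearMap.smul_apply, smul_eq_mul,
            RingHom.id_apply]
          ring }
    have : f = 0 := b.ext fun l => h1 l j x
    exact congrArg (fun g : L →ₗ[ℝ] ℝ => g y) this
  let f : L →ₗ[ℝ] ℝ :=
    { toFun := fun z => Ω ⁅x, y⁆ z + Ω ⁅y, z⁆ x + Ω ⁅z, x⁆ y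
      map_add' := by
        intro u v
        simp only [add_lie, lie_add, map_add, LinearMap.add_apply]
        ring
      map_smul' := by
        intro r u
        simp only [smul_lie, lie_smul, map_smul, LinearMap.smul_apply, smul_eq_mul,
          RingHom.id_apply]
        ring }
  have : f = 0 := b.ext fun l => h2 l x y
  exact congrArg (fun g : L →ₗ[ℝ] ℝ => g z) this

lemma trace_ad (b : Module.Basis (Fin 4) ℝ L) (x : L) :
    LinearMap.trace ℝ L (LieAlgebra.ad ℝ L x) = ∑ k, b.repr ⁅x, b k⁆ k := by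
  rw [LinearMap.trace_eq_matrix_trace ℝ b]
  simp [Matrix.trace, LinearMap.toMatrix_apply]

/-- A form antisymmetric on a basis is alternating. -/
lemma alt_of_basis (b : Module.Basis (Fin 4) ℝ L) (Ω : LinearMap.BilinForm ℝ L)
    (h : ∀ i j, Ω (b j) (b i) = - Ω (b i) (b j)) (v : L) : Ω v v = 0 := by
  have h00 : Ω (b 0) (b 0) = 0 := by linarith [h 0 0]
  have h11 : Ω (b 1) (b 1) = 0 := by linarith [h 1 1]
  have h22 : Ω (b 2) (b 2) = 0 := by linarith [h 2 2]
  have h33 : Ω (b 3) (b 3) = 0 := by linarith [h 3 3]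
  rw [← b.sum_repr v]
  simp only [Fin.sum_univ_four, map_add, map_smul, LinearMap.add_apply, LinearMap.smul_apply,
    smul_eq_mul, h00, h11, h22, h33, h 0 1, h 0 2, h 0 3, h 1 2, h 1 3, h 2 3]
  ring

/-- Positivity of the Hermitian form with positive diagonal and positive determinant. -/
lemma pos_of_det (x y : Fin 4 → ℝ) (hx0 : 0 < x 0) (hdet : 0 < x 0 * x 1 - x 2 ^ 2 - x 3 ^ 2)
    (hy : y ≠ 0) :
    0 < x 0 * (y 0 ^ 2 + y 1 ^ 2) + x 1 * (y 2 ^ 2 + y 3 ^ 2)
        + 2 * x 2 * (y 1 * y 2 - y 0 * y 3) - 2 * x 3 * (y 0 * y 2 + y 1 * y 3) := by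
  have hidentity : x 0 * (x 0 * (y 0 ^ 2 + y 1 ^ 2) + x 1 * (y 2 ^ 2 + y 3 ^ 2)
      + 2 * x 2 * (y 1 * y 2 - y 0 * y 3) - 2 * x 3 * (y 0 * y 2 + y 1 * y 3))
      = (x 0 * y 0 - x 3 * y 2 - x 2 * y 3) ^ 2 + (x 0 * y 1 + x 2 * y 2 - x 3 * y 3) ^ 2
        + (x 0 * x 1 - x 2 ^ 2 - x 3 ^ 2) * (y 2 ^ 2 + y 3 ^ 2) := by ring
  have hpos : 0 < x 0 * (x 0 * (y 0 ^ 2 + y 1 ^ 2) + x 1 * (y 2 ^ 2 + y 3 ^ 2)
      + 2 * x 2 * (y 1 * y 2 - y 0 * y 3) - 2 * x 3 * (y 0 * y 2 + y 1 * y 3)) := by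
    rw [hidentity]
    by_cases h23 : y 2 ^ 2 + y 3 ^ 2 = 0
    · have hy2 : y 2 = 0 := by nlinarith [sq_nonneg (y 2), sq_nonneg (y 3)]
      have hy3 : y 3 = 0 := by nlinarith [sq_nonneg (y 2), sq_nonneg (y 3)]
      rw [hy2, hy3]
      have h01 : y 0 ≠ 0 ∨ y 1 ≠ 0 := by
        by_contra hcon
        push Not at hcon
        apply hy
        funext i
        fin_cases i
        · exact hcon.1
        · exact hcon.2
        · exact hy2
        · exact hy3
      have h3 : 0 < x 0 ^ 2 * (y 0 ^ 2 + y 1 ^ 2) := by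
        have : 0 < y 0 ^ 2 + y 1 ^ 2 := by
          rcases h01 with h | h
          · have := sq_nonneg (y 1)
            have : 0 < y 0 ^ 2 := by positivity
            linarith
          · have := sq_nonneg (y 0)
            have : 0 < y 1 ^ 2 := by positivity
            linarith
        positivity
      nlinarith
    · have h3 : 0 < y 2 ^ 2 + y 3 ^ 2 :=
        lt_of_le_of_ne (by positivity) (Ne.symm h23)
      have h4 := mul_pos hdet h3
      nlinarith [sq_nonneg (x 0 * y 0 - x 3 * y 2 - x 2 * y 3),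
        sq_nonneg (x 0 * y 1 + x 2 * y 2 - x 3 * y 3)]
  exact (pos_iff_pos_of_mul_pos hpos).mp hx0

/-- The `J`-behaviour of a bilinear form can be tested on an adapted basis. -/
lemma J_scale_of_basis (b : Module.Basis (Fin 4) ℝ L) (J : L →ₗ[ℝ] L)
    (Ω : LinearMap.BilinForm ℝ L) (ε : ℝ)
    (h : ∀ i j, Ω (J (b i)) (J (b j)) = ε * Ω (b i) (b j)) (u v : L) :
    Ω (J u) (J v) = ε * Ω u v := by
  have : Ω.comp J J = ε • Ω := LinearMap.BilinForm.ext_basis b (fun i j => by
    simp [LinearMap.BilinForm.comp_apply, h])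
  have h3 := LinearMap.BilinForm.congr_fun this u v
  simpa [LinearMap.BilinForm.comp_apply] using h3

/-- The array conditions giving anti-invariance in an adapted basis. -/
lemma anti_of_coords (b : Module.Basis (Fin 4) ℝ L) (J : L →ₗ[ℝ] L)
    (h0 : J (b 0) = b 1) (h1 : J (b 1) = - b 0) (h2 : J (b 2) = b 3) (h3 : J (b 3) = - b 2)
    (T : LinearMap.BilinForm ℝ L) (hTalt : ∀ v, T v v = 0)
    (t01 : T (b 0) (b 1) = 0) (t23 : T (b 2) (b 3) = 0)
    (t02 : T (b 0) (b 2) + T (b 1) (b 3) = 0) (t12 : T (b 1) (b 2) - T (b 0) (b 3) = 0)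
    (u v : L) : T (J u) (J v) = - T u v := by
  have hsymm : ∀ u v, T v u = - T u v := by
    intro u v
    have := hTalt (u + v)
    simp only [map_add, LinearMap.add_apply, hTalt] at this
    linarith
  have t10 := hsymm (b 0) (b 1)
  have t20 := hsymm (b 0) (b 2)
  have t30 := hsymm (b 0) (b 3)
  have t21 := hsymm (b 1) (b 2)
  have t31 := hsymm (b 1) (b 3)
  have t32 := hsymm (b 2) (b 3)
  have key := J_scale_of_basis b J T (-1) (fun i j => by
    fin_cases i <;> fin_cases j <;>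
      simp [h0, h1, h2, h3, hTalt] <;> linarith)
  have h5 := key u v
  linarith

/-- Expansion of `Ω v (J v)` in an adapted basis. -/
lemma form_J_expand (b : Module.Basis (Fin 4) ℝ L) (J : L →ₗ[ℝ] L)
    (h0 : J (b 0) = b 1) (h1 : J (b 1) = - b 0) (h2 : J (b 2) = b 3) (h3 : J (b 3) = - b 2)
    (Ω : LinearMap.BilinForm ℝ L) (hΩ : ∀ x, Ω x x = 0) (x : Fin 4 → ℝ) :
    Ω (∑ i, x i • b i) (J (∑ i, x i • b i))
      = invPart (fun i j => Ω (b i) (b j)) 0 * (x 0 ^ 2 + x 1 ^ 2)
        + invPart (fun i j => Ω (b i) (b j)) 1 * (x 2 ^ 2 + x 3 ^ 2)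
        + 2 * invPart (fun i j => Ω (b i) (b j)) 2 * (x 1 * x 2 - x 0 * x 3)
        - 2 * invPart (fun i j => Ω (b i) (b j)) 3 * (x 0 * x 2 + x 1 * x 3) := by
  have hsymm : ∀ u v, Ω v u = - Ω u v := by
    intro u v
    have := hΩ (u + v)
    simp only [map_add, LinearMap.add_apply, hΩ] at this
    linarith
  simp only [Fin.sum_univ_four, map_add, map_smul, h0, h1, h2, h3, smul_neg, LinearMap.add_apply,
    LinearMap.smul_apply, smul_eq_mul, map_neg, LinearMap.neg_apply, hΩ, invPart]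
  rw [hsymm (b 0) (b 1), hsymm (b 0) (b 2), hsymm (b 0) (b 3), hsymm (b 1) (b 2),
    hsymm (b 1) (b 3), hsymm (b 2) (b 3)]
  simp
  ring

/-- **Main theorem** (Lie algebra form). -/
theorem main_lie (h4 : Module.finrank ℝ L = 4)
    (hu : ∀ x : L, LinearMap.trace ℝ L (LieAlgebra.ad ℝ L x) = 0)
    (J : L →ₗ[ℝ] L) (hJ : ∀ x, J (J x) = -x)
    (ω : LinearMap.BilinForm ℝ L) (halt : ∀ x, ω x x = 0)
    (hcl : ∀ x y z, ω ⁅x, y⁆ z + ω ⁅y, z⁆ x + ω ⁅z, x⁆ y = 0)
    (htame : ∀ v, v ≠ 0 → 0 < ω v (J v)) :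
    ∃ (ω' : LinearMap.BilinForm ℝ L) (β : Module.Dual ℝ L),
      (∀ x, ω' x x = 0) ∧
      (∀ x y z, ω' ⁅x, y⁆ z + ω' ⁅y, z⁆ x + ω' ⁅z, x⁆ y = 0) ∧
      (∀ u v, ω' (J u) (J v) = ω' u v) ∧
      (∀ v, v ≠ 0 → 0 < ω' v (J v)) ∧
      (∀ u v, (ω (J u) (J v) - ω' (J u) (J v) + β ⁅J u, J v⁆)
        = - (ω u v - ω' u v + β ⁅u, v⁆)) := by
  obtain ⟨b, hb0, hb1, hb2, hb3⟩ := exists_adapted_basis h4 J hJ
  set c := structConst b with hcdef
  have hc : ∀ i j k, c j i k = - c i j k := by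
    intro i j k
    simp only [hcdef, structConst]
    have h : ⁅b j, b i⁆ = - ⁅b i, b j⁆ := (lie_skew _ _).symm
    rw [h, map_neg]
    rfl
  have tr : ∀ l, ∑ k, c l k k = 0 := by
    intro l
    have := hu (b l)
    rw [trace_ad b] at this
    exact this
  have hsymm : ∀ (Ω : LinearMap.BilinForm ℝ L), (∀ x, Ω x x = 0) → ∀ u v, Ω v u = - Ω u v := by
    intro Ω hΩ u v
    have := hΩ (u + v)
    simp only [map_add, LinearMap.add_apply, hΩ] at this
    linarith
  have jac : ∀ (β : Fin 4 → ℝ) (i j l : Fin 4), closedVal c (dd c β) i j l = 0 := by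
    intro β i j l
    have := closedVal_form b (dForm (b.constr ℝ β)) i j l
    simp only [dual_bracket] at this
    have h2 : (fun i j => dd (structConst b) β i j) = dd c β := rfl
    rw [h2] at this
    rw [hcdef, this, dForm_closed]
  set Om : Fin 4 → Fin 4 → ℝ := fun i j => ω (b i) (b j) with hOmdef
  have hOm : ∀ i j, Om j i = - Om i j := fun i j => hsymm ω halt _ _
  have hclO : ∀ i j l, closedVal c Om i j l = 0 := by
    intro i j l
    rw [hcdef, hOmdef, closedVal_form, hcl]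
  -- positivity of the invariant part
  have hexp := form_J_expand b J hb0 hb1 hb2 hb3 ω halt
  have hne : ∀ x : Fin 4 → ℝ, x ≠ 0 → ∑ i, x i • b i ≠ 0 := by
    intro x hx h
    apply hx
    have := (Fintype.linearIndependent_iff.mp b.linearIndependent) x h
    funext i
    exact this i
  set s := invPart Om with hsdef
  have hs0 : 0 < s 0 := by
    have h := htame _ (hne ![1, 0, 0, 0] (by intro h; simpa using congrFun h 0))
    rw [hexp] at h
    simpa using h
  have hsdet : s 2 ^ 2 + s 3 ^ 2 < s 0 * s 1 := by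
    have hx : ![s 3, - s 2, s 0, 0] ≠ (0 : Fin 4 → ℝ) := by
      intro h
      have := congrFun h 2
      simp at this
      exact hs0.ne' this
    have h := htame _ (hne _ hx)
    rw [hexp] at h
    simp at h
    have h3 : 0 < s 0 * (s 0 * s 1 - s 2 ^ 2 - s 3 ^ 2) := by
      have : 0 < s 0 * (s 3 ^ 2 + s 2 ^ 2) + s 1 * s 0 ^ 2 +
          2 * s 2 * (- s 2 * s 0) - 2 * s 3 * (s 3 * s 0) := by
        simpa [hsdef, hOmdef] using h
      nlinarith
    have h4 : 0 < s 0 * s 1 - s 2 ^ 2 - s 3 ^ 2 := by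
      by_contra hcon
      have hle := not_lt.mp hcon
      nlinarith
    linarith
  obtain ⟨β, x, hx0, hxdet, hxcl, hdecomp⟩ := core c hc tr jac Om hOm hclO hs0 hsdet
  -- the compatible form
  let M : Matrix (Fin 4) (Fin 4) ℝ := Matrix.of (invArray x)
  let ω' : LinearMap.BilinForm ℝ L := Matrix.toBilin b M
  have hω' : ∀ i j, ω' (b i) (b j) = invArray x i j := by
    intro i j
    simp [ω', M, Matrix.toBilin_apply, Finsupp.single_apply]
  have hω'alt : ∀ v, ω' v v = 0 := alt_of_basis b ω' (fun i j => by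
    rw [hω', hω']; exact invArray_antisymm x i j)
  have hω'cl : ∀ y z w, ω' ⁅y, z⁆ w + ω' ⁅z, w⁆ y + ω' ⁅w, y⁆ z = 0 := by
    apply closed_of_basis b
    intro i j l
    rw [← closedVal_form]
    have h2 : (fun i j => ω' (b i) (b j)) = invArray x := by
      funext i j; exact hω' i j
    rw [h2]
    exact hxcl i j l
  refine ⟨ω', b.constr ℝ β, hω'alt, hω'cl, ?_, ?_, ?_⟩
  · intro u v
    have := J_scale_of_basis b J ω' 1 (fun i j => by
      fin_cases i <;> fin_cases j <;>
        simp [hb0, hb1, hb2, hb3, hω', invArray])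
    simpa using this u v
  · intro v hv
    have hv2 : v = ∑ i, b.repr v i • b i := (b.sum_repr v).symm
    have hxne : (fun i => b.repr v i) ≠ 0 := by
      intro h
      apply hv
      rw [hv2]
      simp [show ∀ i, b.repr v i = 0 from fun i => congrFun h i]
    have hexp2 := form_J_expand b J hb0 hb1 hb2 hb3 ω' hω'alt (fun i => b.repr v i)
    rw [← hv2] at hexp2
    rw [hexp2]
    have h2 : (fun i j => ω' (b i) (b j)) = invArray x := by
      funext i j; exact hω' i j
    rw [h2, invPart_invArray]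
    have := pos_of_det x (fun i => b.repr v i) hx0 (by linarith) hxne
    simpa using this
  · -- the anti-invariant remainder
    set T : LinearMap.BilinForm ℝ L := ω - ω' - dForm (b.constr ℝ β) with hT
    have hTapply : ∀ u v, T u v = ω u v - ω' u v + (b.constr ℝ β) ⁅u, v⁆ := by
      intro u v
      simp [hT, dForm_apply]
    have hTalt : ∀ v, T v v = 0 := by
      intro v
      simp [hTapply, halt, hω'alt]
    have hTbasis : ∀ i j, T (b i) (b j) = Om i j - invArray x i j - dd c β i j := by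
      intro i j
      rw [← hω' i j, ← dual_bracket]
      simp [hT, hOmdef]
    have e := fun k => congrFun hdecomp k
    have e0 := e 0
    have e1 := e 1
    have e2 := e 2
    have e3 := e 3
    simp only [invPart, Pi.add_apply, Matrix.cons_val_zero, Matrix.cons_val_one,
      Matrix.cons_val] at e0 e1 e2 e3
    have key := anti_of_coords b J hb0 hb1 hb2 hb3 T hTalt
      (by rw [hTbasis]; simp [invArray]; linarith)
      (by rw [hTbasis]; simp [invArray]; linarith)
      (by rw [hTbasis, hTbasis]; simp [invArray]; linarith)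
      (by rw [hTbasis, hTbasis]; simp [invArray]; linarith)
    intro u v
    have h5 := key u v
    rw [hTapply, hTapply] at h5
    linarith

end Main

end

end Vale.Agent.Lib.P204
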